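import Vale.Agent.P017.H506.R0
import Vale.Agent.P017.H994.Card
import Vale.Agent.P017.H994.CardI

/-!
# Rows T12a, T12b: the criteria of both classes in terms of the triples `R3`
-/

namespace Vale.Agent.P017.H102

open Finset Function Vale.Agent.P017.H506 Vale.Agent.P017.H994

theorem z2 (x : ZMod 2) : x = 0 ∨ x = 1 := by revert x; decide

theorem v0 : ZMod.val (0 : ZMod 2) = 0 := rfl
theorem v1 : ZMod.val (1 : ZMod 2) = 1 := rfl

theorem sqm {F : Type*} [Field F] {s z : F} (hs : s ≠ 0) :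
    IsSquare (s * s * z) ↔ IsSquare z := by
  constructor
  · rintro ⟨w, hw⟩
    refine ⟨w / s, ?_⟩
    field_simp
    linear_combination hw
  · rintro ⟨w, hw⟩
    exact ⟨s * w, by rw [hw]; ring⟩

theorem dvd_split {q m b : ℕ} (hq : q.Prime) (hb : b ∣ q * m) :
    ∃ x : ZMod 2, ∃ a, a ∣ m ∧ b = q ^ x.val * a := by
  by_cases h : q ∣ b
  · obtain ⟨a, rfl⟩ := h
    refine ⟨1, a, Nat.dvd_of_mul_dvd_mul_left hq.pos hb, ?_⟩
    rw [v1, pow_one]
  · refine ⟨0, b, ?_, ?_⟩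
    · have hc : Nat.Coprime b q := ((Nat.Prime.coprime_iff_not_dvd hq).2 h).symm
      exact hc.dvd_of_dvd_mul_left hb
    · rw [v0, pow_zero, one_mul]

theorem uniq {q a a' : ℕ} (ha : ¬ q ∣ a) (ha' : ¬ q ∣ a') {x x' : ZMod 2} (hq : q ≠ 0)
    (h : q ^ x.val * a = q ^ x'.val * a') : x = x' ∧ a = a' := by
  rcases z2 x with rfl | rfl <;> rcases z2 x' with rfl | rfl <;>
    simp only [v0, v1, pow_zero, pow_one, one_mul] at h
  · exact ⟨rfl, h⟩
  · exact absurd ⟨a', h⟩ ha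
  · exact absurd ⟨a, h.symm⟩ ha'
  · exact ⟨rfl, Nat.eq_of_mul_eq_mul_left (Nat.pos_of_ne_zero hq) h⟩

/-- exponent of `2` in the radicand -/
def ex (tp : ℕ) : ℕ := if tp = 2 then 1 else 0

theorem dd_eq (tp n : ℕ) : dd tp n = 2 ^ ex tp * n := by
  unfold dd ex
  split_ifs <;> simp

theorem IsG.odd {tp cl n : ℕ} (h : IsG tp cl n) : n % 2 = 1 := by
  obtain ⟨_, h2, _⟩ := h
  split_ifs at h2 <;> omega

theorem IsG.sqf {tp cl n : ℕ} (h : IsG tp cl n) : Squarefree (dd tp n) := by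
  have ho := IsG.odd h
  rw [dd_eq]
  unfold ex
  split_ifs with h2
  · have hc : Nat.Coprime (2 ^ 1) n := by
      rw [pow_one]
      exact (Nat.coprime_two_left).2 (Nat.odd_iff.2 ho)
    rw [Nat.squarefree_mul hc]
    refine ⟨?_, h.1⟩
    rw [pow_one]
    exact Nat.prime_two.squarefree
  · simpa using h.1

theorem IsG.ram {tp cl n : ℕ} (h : IsG tp cl n) :
    ram (dd tp n) = if tp = 0 then n else 2 * n := by
  have h2 := h.2.1
  have hc : tp = 0 ∨ tp = 1 ∨ tp = 2 := by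
    split_ifs at h2 <;> omega
  rcases hc with rfl | rfl | rfl
  · simp only [if_true] at h2
    simp only [H994.ram, dd]
    simp [h2]
  · simp at h2
    simp only [H994.ram, dd]
    simp [h2]
  · simp at h2
    have : ¬ (2 * n) % 4 = 1 := by omega
    simp only [H994.ram, dd]
    simp [this]

theorem IsG.five {tp cl n : ℕ} (h : IsG tp cl n) :
    five (dd tp n) = if tp = 0 then 5 * n else 10 * n := by
  have h2 := h.2.1
  have hc : tp = 0 ∨ tp = 1 ∨ tp = 2 := by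
    split_ifs at h2 <;> omega
  rcases hc with rfl | rfl | rfl
  · simp only [if_true] at h2
    simp only [H994.five, dd]
    simp [h2]
  · simp at h2
    simp only [H994.five, dd]
    simp [h2]
  · simp at h2
    have : ¬ (2 * n) % 4 = 1 := by omega
    simp only [H994.five, dd]
    simp [this]
    ring

section loc

variable {tp n p : ℕ}

theorem p_ne_two (ho : n % 2 = 1) (hpn : p ∣ n) : p ≠ 2 := by
  rintro rfl
  omega

theorem p_dvd_dd (hp : p.Prime) (ho : n % 2 = 1) : (p ≠ 2 ∧ p ∣ dd tp n) ↔ p ∣ n := by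
  rw [dd_eq]
  constructor
  · rintro ⟨h2, h⟩
    rcases (Nat.Prime.dvd_mul hp).1 h with h1 | h1
    · exact absurd ((Nat.prime_dvd_prime_iff_eq hp Nat.prime_two).1 (hp.dvd_of_dvd_pow h1)) h2
    · exact h1
  · intro h
    exact ⟨p_ne_two ho h, h.mul_left _⟩

/-- the local conditions agree, first class -/
theorem loc_I (ho : n % 2 = 1) {x : ZMod 2} {a : ℕ} (ha : a ∣ n) :
    CondI (dd tp n) (2 ^ x.val * a) ↔ Loc3 tp n x 0 a := by
  have hn0 : n ≠ 0 := by rintro rfl; simp at ho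
  have ha0 : 0 < a := Nat.pos_of_dvd_of_pos ha (Nat.pos_of_ne_zero hn0)
  obtain ⟨c, rfl⟩ := ha
  have hca : a * c / a = c := Nat.mul_div_cancel_left c ha0
  have key : ∀ p : ℕ, p.Prime → p ∣ a * c →
      (((¬ p ∣ 2 ^ x.val * a → IsSquare ((2 ^ x.val * a : ℕ) : ZMod p)) ∧
        (p ∣ 2 ^ x.val * a → IsSquare ((2 * (2 * dd tp (a * c) / (2 ^ x.val * a)) : ℕ) : ZMod p))) ↔
      ((¬ p ∣ a → IsSquare ((2 ^ x.val * 5 ^ (0 : ZMod 2).val * a : ℕ) : ZMod p)) ∧
        (p ∣ a → IsSquare ((2 ^ (x.val + if tp = 2 then 1 else 0) * 5 ^ (0 : ZMod 2).val *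
          (a * c / a) : ℕ) : ZMod p)))) := by
    intro p hp hpn
    have : Fact p.Prime := ⟨hp⟩
    have hp2 : p ≠ 2 := p_ne_two ho hpn
    have h2 : ((2 : ℕ) : ZMod p) ≠ 0 := by
      intro h
      exact hp2 ((Nat.prime_dvd_prime_iff_eq hp Nat.prime_two).1
        ((ZMod.natCast_eq_zero_iff _ _).1 h))
    have hd : p ∣ 2 ^ x.val * a ↔ p ∣ a := by
      rw [Nat.Prime.dvd_mul hp]
      constructor
      · rintro (h | h)
        · exact absurd ((Nat.prime_dvd_prime_iff_eq hp Nat.prime_two).1 (hp.dvd_of_dvd_pow h)) hp2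
        · exact h
      · exact Or.inr
    have hdiv : 2 * (2 * dd tp (a * c) / (2 ^ x.val * a)) =
        2 ^ (1 - x.val) * 2 ^ (1 - x.val) * (2 ^ (x.val + ex tp) * c) := by
      have e : 2 * dd tp (a * c) / (2 ^ x.val * a) = 2 ^ (1 - x.val) * 2 ^ ex tp * c := by
        apply Nat.div_eq_of_eq_mul_right (by positivity)
        rw [dd_eq]
        rcases z2 x with rfl | rfl <;> simp only [v0, v1] <;> ring
      rw [e]
      rcases z2 x with rfl | rfl <;> simp only [v0, v1] <;> ring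
    rw [hd, hdiv, hca, v0]
    have hs : ((2 ^ (1 - x.val) : ℕ) : ZMod p) ≠ 0 := by
      rw [Nat.cast_pow]
      exact pow_ne_zero _ h2
    have e1 : ((2 ^ (1 - x.val) * 2 ^ (1 - x.val) * (2 ^ (x.val + ex tp) * c) : ℕ) : ZMod p) =
        ((2 ^ (1 - x.val) : ℕ) : ZMod p) * ((2 ^ (1 - x.val) : ℕ) : ZMod p) *
          ((2 ^ (x.val + ex tp) * c : ℕ) : ZMod p) := by
      push_cast; ring
    rw [e1, sqm hs]
    simp only [pow_zero, mul_one, ex]
  constructor
  · intro h p hp hpn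
    have := (p_dvd_dd (tp := tp) hp ho).2 hpn
    exact (key p hp hpn).1 (h p hp this.1 this.2)
  · intro h p hp hp2 hpd
    have hpn := (p_dvd_dd (tp := tp) hp ho).1 ⟨hp2, hpd⟩
    exact (key p hp hpn).2 (h p hp hpn)

/-- the local conditions agree, second class -/
theorem loc_II (ho : n % 2 = 1) (h5n : ¬ 5 ∣ n) {x y : ZMod 2} {a : ℕ} (ha : a ∣ n) :
    Cond2 (dd tp n) (2 ^ x.val * 5 ^ y.val * a) ↔
      (Loc3 tp n x y a ∧ (2 ^ x.val * 5 ^ y.val * a) % 3 = 1) := by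
  have hn0 : n ≠ 0 := by rintro rfl; simp at ho
  have ha0 : 0 < a := Nat.pos_of_dvd_of_pos ha (Nat.pos_of_ne_zero hn0)
  obtain ⟨c, rfl⟩ := ha
  have hca : a * c / a = c := Nat.mul_div_cancel_left c ha0
  have key : ∀ p : ℕ, p.Prime → p ∣ a * c →
      (((¬ p ∣ 2 ^ x.val * 5 ^ y.val * a →
          IsSquare ((2 ^ x.val * 5 ^ y.val * a : ℕ) : ZMod p)) ∧
        (p ∣ 2 ^ x.val * 5 ^ y.val * a →
          IsSquare ((10 * (10 * dd tp (a * c) / (2 ^ x.val * 5 ^ y.val * a)) : ℕ) : ZMod p))) ↔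
      ((¬ p ∣ a → IsSquare ((2 ^ x.val * 5 ^ y.val * a : ℕ) : ZMod p)) ∧
        (p ∣ a → IsSquare ((2 ^ (x.val + if tp = 2 then 1 else 0) * 5 ^ y.val *
          (a * c / a) : ℕ) : ZMod p)))) := by
    intro p hp hpn
    have : Fact p.Prime := ⟨hp⟩
    have hp2 : p ≠ 2 := p_ne_two ho hpn
    have hp5 : p ≠ 5 := by rintro rfl; exact h5n hpn
    have h2 : ((2 : ℕ) : ZMod p) ≠ 0 := by
      intro h
      exact hp2 ((Nat.prime_dvd_prime_iff_eq hp Nat.prime_two).1
        ((ZMod.natCast_eq_zero_iff _ _).1 h))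
    have h5 : ((5 : ℕ) : ZMod p) ≠ 0 := by
      intro h
      exact hp5 ((Nat.prime_dvd_prime_iff_eq hp Nat.prime_five).1
        ((ZMod.natCast_eq_zero_iff _ _).1 h))
    have hd : p ∣ 2 ^ x.val * 5 ^ y.val * a ↔ p ∣ a := by
      rw [Nat.Prime.dvd_mul hp, Nat.Prime.dvd_mul hp]
      constructor
      · rintro ((h | h) | h)
        · exact absurd ((Nat.prime_dvd_prime_iff_eq hp Nat.prime_two).1 (hp.dvd_of_dvd_pow h)) hp2
        · exact absurd ((Nat.prime_dvd_prime_iff_eq hp Nat.prime_five).1 (hp.dvd_of_dvd_pow h)) hp5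
        · exact h
      · exact Or.inr
    have hdiv : 10 * (10 * dd tp (a * c) / (2 ^ x.val * 5 ^ y.val * a)) =
        (2 ^ (1 - x.val) * 5 ^ (1 - y.val)) * (2 ^ (1 - x.val) * 5 ^ (1 - y.val)) *
          (2 ^ (x.val + ex tp) * 5 ^ y.val * c) := by
      have e : 10 * dd tp (a * c) / (2 ^ x.val * 5 ^ y.val * a) =
          2 ^ (1 - x.val) * 5 ^ (1 - y.val) * 2 ^ ex tp * c := by
        apply Nat.div_eq_of_eq_mul_right (by positivity)
        rw [dd_eq]
        rcases z2 x with rfl | rfl <;> rcases z2 y with rfl | rfl <;> simp only [v0, v1] <;> ring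
      rw [e]
      rcases z2 x with rfl | rfl <;> rcases z2 y with rfl | rfl <;> simp only [v0, v1] <;> ring
    rw [hd, hdiv, hca]
    have hs : ((2 ^ (1 - x.val) * 5 ^ (1 - y.val) : ℕ) : ZMod p) ≠ 0 := by
      rw [Nat.cast_mul, Nat.cast_pow, Nat.cast_pow]
      exact mul_ne_zero (pow_ne_zero _ h2) (pow_ne_zero _ h5)
    have e1 : (((2 ^ (1 - x.val) * 5 ^ (1 - y.val)) * (2 ^ (1 - x.val) * 5 ^ (1 - y.val)) *
          (2 ^ (x.val + ex tp) * 5 ^ y.val * c) : ℕ) : ZMod p) =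
        ((2 ^ (1 - x.val) * 5 ^ (1 - y.val) : ℕ) : ZMod p) *
          ((2 ^ (1 - x.val) * 5 ^ (1 - y.val) : ℕ) : ZMod p) *
          ((2 ^ (x.val + ex tp) * 5 ^ y.val * c : ℕ) : ZMod p) := by
      push_cast; ring
    rw [e1, sqm hs]
    simp only [ex]
  constructor
  · rintro ⟨h3, h⟩
    refine ⟨fun p hp hpn => ?_, h3⟩
    have := (p_dvd_dd (tp := tp) hp ho).2 hpn
    exact (key p hp hpn).1 (h p hp this.1 this.2)
  · rintro ⟨h, h3⟩
    refine ⟨h3, fun p hp hp2 hpd => ?_⟩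
    have hpn := (p_dvd_dd (tp := tp) hp ho).1 ⟨hp2, hpd⟩
    exact (key p hp hpn).2 (h p hp hpn)

end loc

theorem not_two_dvd {n a : ℕ} (ho : n % 2 = 1) (ha : a ∣ n) : ¬ 2 ∣ a := by
  intro h
  have := h.trans ha
  omega

theorem card_I {tp n : ℕ} (hn : IsG tp 0 n) : (R3 tp 0 n).card = (RS1 (dd tp n)).card := by
  classical
  have ho := IsG.odd hn
  have hn0 : n ≠ 0 := by rintro rfl; simp at ho
  have hram := IsG.ram hn
  apply Finset.card_nbij (fun z => 2 ^ z.1.val * z.2.2)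
  · rintro ⟨x, y, a⟩ hz
    have hz1 := Finset.mem_coe.1 hz
    rw [R3, Finset.mem_filter] at hz1
    obtain ⟨hm, hx, hy, hL, -⟩ := hz1
    have ha : a ∣ n := by
      simp only [Finset.mem_product, Finset.mem_univ, true_and, Nat.mem_divisors] at hm
      exact hm.1
    have hy0 : y = 0 := hy rfl
    subst hy0
    rw [Finset.mem_coe, RS1, Finset.mem_filter, Nat.mem_divisors]
    refine ⟨⟨?_, ram_ne_zero (IsG.sqf hn).ne_zero⟩, (loc_I ho ha).2 hL⟩
    rw [hram]
    split_ifs with h0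
    · have : x = 0 := hx h0
      subst this
      simpa [v0] using ha
    · rcases z2 x with rfl | rfl
      · simpa [v0] using ha.mul_left 2
      · simpa [v1] using Nat.mul_dvd_mul_left 2 ha
  · rintro ⟨x, y, a⟩ hz ⟨x', y', a'⟩ hz' h
    have hz1 := Finset.mem_coe.1 hz
    have hz1' := Finset.mem_coe.1 hz'
    rw [R3, Finset.mem_filter] at hz1 hz1'
    obtain ⟨hm, -, hy, -⟩ := hz1
    obtain ⟨hm', -, hy', -⟩ := hz1'
    simp only [Finset.mem_product, Finset.mem_univ, true_and, Nat.mem_divisors] at hm hm'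
    have hy0 : y = 0 := hy rfl
    have hy0' : y' = 0 := hy' rfl
    obtain ⟨h1, h2⟩ := uniq (not_two_dvd ho hm.1) (not_two_dvd ho hm'.1) two_ne_zero h
    subst h1 h2 hy0 hy0'
    rfl
  · intro b hb
    have hb1 := Finset.mem_coe.1 hb
    rw [RS1, Finset.mem_filter, Nat.mem_divisors] at hb1
    obtain ⟨⟨hb2, -⟩, hb3⟩ := hb1
    rw [hram] at hb2
    have : ∃ x : ZMod 2, ∃ a, a ∣ n ∧ b = 2 ^ x.val * a ∧ (tp = 0 → x = 0) := by
      split_ifs at hb2 with h0
      · exact ⟨0, b, hb2, by rw [v0, pow_zero, one_mul], fun _ => rfl⟩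
      · obtain ⟨x, a, h1, h2⟩ := dvd_split Nat.prime_two hb2
        exact ⟨x, a, h1, h2, fun h => absurd h h0⟩
    obtain ⟨x, a, ha, rfl, hx⟩ := this
    refine ⟨(x, 0, a), ?_, rfl⟩
    rw [Finset.mem_coe, R3, Finset.mem_filter]
    refine ⟨?_, hx, fun _ => rfl, (loc_I ho ha).1 hb3, fun h => absurd rfl h⟩
    simp only [Finset.mem_product, Finset.mem_univ, true_and, Nat.mem_divisors]
    exact ⟨ha, hn0⟩

theorem card_II {tp cl n : ℕ} (hcl : cl ≠ 0) (hn : IsG tp cl n) :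
    (R3 tp cl n).card = (RS2 (dd tp n)).card := by
  classical
  have ho := IsG.odd hn
  have hn0 : n ≠ 0 := by rintro rfl; simp at ho
  have hfive := IsG.five hn
  have h5 := hn.2.2
  rw [if_neg hcl] at h5
  have h5n : ¬ 5 ∣ n := by
    intro h
    have : 5 ∣ dd tp n := by rw [dd_eq]; exact h.mul_left _
    omega
  have na : ∀ a, a ∣ n → ¬ 5 ∣ a := fun a ha h => h5n (h.trans ha)
  apply Finset.card_nbij (fun z => 2 ^ z.1.val * 5 ^ z.2.1.val * z.2.2)
  · rintro ⟨x, y, a⟩ hz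
    have hz1 := Finset.mem_coe.1 hz
    rw [R3, Finset.mem_filter] at hz1
    obtain ⟨hm, hx, -, hL, h3⟩ := hz1
    have ha : a ∣ n := by
      simp only [Finset.mem_product, Finset.mem_univ, true_and, Nat.mem_divisors] at hm
      exact hm.1
    rw [Finset.mem_coe, RS2, Finset.mem_filter, Nat.mem_divisors]
    refine ⟨⟨?_, five_ne_zero (IsG.sqf hn).ne_zero⟩, (loc_II ho h5n ha).2 ⟨hL, h3 hcl⟩⟩
    rw [hfive]
    have hy : 5 ^ y.val * a ∣ 5 * n := by
      rcases z2 y with rfl | rfl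
      · simpa [v0] using ha.mul_left 5
      · simpa [v1] using Nat.mul_dvd_mul_left 5 ha
    split_ifs with h0
    · have : x = 0 := hx h0
      subst this
      simpa [v0] using hy
    · have e : 10 * n = 2 * (5 * n) := by ring
      rw [e]
      show 2 ^ x.val * 5 ^ y.val * a ∣ _
      rw [mul_assoc]
      rcases z2 x with rfl | rfl
      · simpa [v0] using hy.mul_left 2
      · simpa [v1] using Nat.mul_dvd_mul_left 2 hy
  · rintro ⟨x, y, a⟩ hz ⟨x', y', a'⟩ hz' h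
    have hz1 := Finset.mem_coe.1 hz
    have hz1' := Finset.mem_coe.1 hz'
    rw [R3, Finset.mem_filter] at hz1 hz1'
    obtain ⟨hm, -⟩ := hz1
    obtain ⟨hm', -⟩ := hz1'
    simp only [Finset.mem_product, Finset.mem_univ, true_and, Nat.mem_divisors] at hm hm'
    have h2a : ∀ (w : ZMod 2) (t : ℕ), t ∣ n → ¬ 2 ∣ 5 ^ w.val * t := by
      intro w t ht hh
      have := not_two_dvd ho ht
      rcases (Nat.Prime.dvd_mul Nat.prime_two).1 hh with h6 | h6
      · exact absurd ((Nat.prime_dvd_prime_iff_eq Nat.prime_two Nat.prime_five).1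
          (Nat.prime_two.dvd_of_dvd_pow h6)) (by norm_num)
      · exact this h6
    have h' : 2 ^ x.val * (5 ^ y.val * a) = 2 ^ x'.val * (5 ^ y'.val * a') := by
      rw [← mul_assoc, ← mul_assoc]; exact h
    obtain ⟨h1, h2⟩ := uniq (h2a y a hm.1) (h2a y' a' hm'.1) two_ne_zero h'
    obtain ⟨h3, h4⟩ := uniq (na a hm.1) (na a' hm'.1) (by norm_num) h2
    subst h1 h3 h4
    rfl
  · intro b hb
    have hb1 := Finset.mem_coe.1 hb
    rw [RS2, Finset.mem_filter, Nat.mem_divisors] at hb1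
    obtain ⟨⟨hb2, -⟩, hb3⟩ := hb1
    rw [hfive] at hb2
    have : ∃ x y : ZMod 2, ∃ a, a ∣ n ∧ b = 2 ^ x.val * 5 ^ y.val * a ∧ (tp = 0 → x = 0) := by
      split_ifs at hb2 with h0
      · obtain ⟨y, a, h1, h2⟩ := dvd_split Nat.prime_five hb2
        exact ⟨0, y, a, h1, by rw [h2, v0, pow_zero, one_mul], fun _ => rfl⟩
      · have e : 10 * n = 2 * (5 * n) := by ring
        rw [e] at hb2
        obtain ⟨x, b', h1, h2⟩ := dvd_split Nat.prime_two hb2
        obtain ⟨y, a, h3, h4⟩ := dvd_split Nat.prime_five h1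
        exact ⟨x, y, a, h3, by rw [h2, h4, mul_assoc], fun h => absurd h h0⟩
    obtain ⟨x, y, a, ha, rfl, hx⟩ := this
    refine ⟨(x, y, a), ?_, rfl⟩
    have hL := (loc_II ho h5n ha).1 hb3
    rw [Finset.mem_coe, R3, Finset.mem_filter]
    refine ⟨?_, hx, fun h => absurd h hcl, hL.1, fun _ => hL.2⟩
    simp only [Finset.mem_product, Finset.mem_univ, true_and, Nat.mem_divisors]
    exact ⟨ha, hn0⟩

end Vale.Agent.P017.H102

namespace Vale.Agent.P017.H506

open Finset Function Vale.Agent.P014.FM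

universe u

theorem fin3_I {tp n : ℕ} (hn : IsG tp 0 n) (h : (R3 tp 0 n).card = 2) :
    ∀ (K : Type u) [Field K] [NumberField K] [Algebra.IsQuadraticExtension ℚ K] (θ : K),
        θ ^ 2 = -(dd tp n : K) → Finite (H185.X015.baseChange K).toAffine.Point := by
  have h5 := hn.2.2
  rw [if_pos rfl] at h5
  rw [H102.card_I hn] at h
  refine H994.fin_of_two_I (H102.IsG.sqf hn) ?_ h5.1 h5.2 h
  intro h1
  rw [h1] at h5
  exact h5.1 rfl

theorem fin3_II {tp cl n : ℕ} (hcl : cl ≠ 0) (hn : IsG tp cl n) (h1 : 1 < n)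
    (h : (R3 tp cl n).card = 2) :
    ∀ (K : Type u) [Field K] [NumberField K] [Algebra.IsQuadraticExtension ℚ K] (θ : K),
        θ ^ 2 = -(dd tp n : K) → Finite (H185.X015.baseChange K).toAffine.Point := by
  have h5 := hn.2.2
  rw [if_neg hcl] at h5
  rw [H102.card_II hcl hn] at h
  refine H994.fin_of_two_II (H102.IsG.sqf hn) ?_ h5.1 h5.2 h
  unfold dd
  split_ifs <;> omega

end Vale.Agent.P017.H506

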